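import Vale.Agent.P111.Main

namespace Vale.Agent.Results.P111.BoundedMultiplicity

open Finset Vale.Agent.P111

universe u

theorem result :
    ∀ (X : Type u) [NormedAddCommGroup X] [NormedSpace ℝ X] [CompleteSpace X] (q r C D : ℝ),
      2 ≤ q → 2 ≤ r → 0 ≤ C → 0 ≤ D → HasCotype X q C → HasCotype (X →L[ℝ] ℝ) r D →
      (∀ (n N d : ℕ) (lam c : ℝ) (T : Fin N → X →L[ℝ] X) (x : Fin n → X),
        0 < d → 0 ≤ lam → 0 < c →
        (∀ j, FiniteDimensional ℝ (LinearMap.range (T j).toLinearMap) ∧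
          Module.finrank ℝ (LinearMap.range (T j).toLinearMap) ≤ d) →
        (∀ (σ : Fin N → Bool) (z : X), ‖∑ j, (cond (σ j) 1 (-1) : ℝ) • T j z‖ ≤ lam * ‖z‖) →
        (∀ k, ‖x k‖ ≤ 1) →
        (∀ θ : Fin n → Bool, c * n ≤ ‖∑ k, (cond (θ k) 1 (-1) : ℝ) • x k‖) →
        (∀ k, ‖(∑ j, T j (x k)) - x k‖ ≤ c / 2) →
        c ^ 2 * (n : ℝ) ^ (1 / r) ≤ 32 * D * d * lam ^ 2 * ((16 * C * lam / c) ^ q + 2)) ∧
      (∀ (lam : ℝ) (d : ℕ),
        (∀ (F : Finset X) (δ : ℝ), 0 < δ → ∃ (N : ℕ) (T : Fin N → X →L[ℝ] X),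
          (∀ j, FiniteDimensional ℝ (LinearMap.range (T j).toLinearMap) ∧
            Module.finrank ℝ (LinearMap.range (T j).toLinearMap) ≤ d) ∧
          (∀ (σ : Fin N → Bool) (z : X), ‖∑ j, (cond (σ j) 1 (-1) : ℝ) • T j z‖ ≤ lam * ‖z‖) ∧
          ∀ z ∈ F, ‖(∑ j, T j z) - z‖ ≤ δ) →
        ¬ ∃ c > (0 : ℝ), ∀ n : ℕ, ∃ x : Fin n → X, (∀ k, ‖x k‖ ≤ 1) ∧
          ∀ a : Fin n → ℝ, c * ∑ k, |a k| ≤ ‖∑ k, a k • x k‖) := by
  intro X _ _ _ q r C D hq hr hC hD hX hX'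
  have hmain : ∀ (n N d : ℕ) (lam c : ℝ) (T : Fin N → X →L[ℝ] X) (x : Fin n → X),
      0 < d → 0 ≤ lam → 0 < c →
      (∀ j, FiniteDimensional ℝ (LinearMap.range (T j).toLinearMap) ∧
        Module.finrank ℝ (LinearMap.range (T j).toLinearMap) ≤ d) →
      (∀ (σ : Fin N → Bool) (z : X), ‖∑ j, (cond (σ j) 1 (-1) : ℝ) • T j z‖ ≤ lam * ‖z‖) →
      (∀ k, ‖x k‖ ≤ 1) →
      (∀ θ : Fin n → Bool, c * n ≤ ‖∑ k, (cond (θ k) 1 (-1) : ℝ) • x k‖) →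
      (∀ k, ‖(∑ j, T j (x k)) - x k‖ ≤ c / 2) →
      c ^ 2 * (n : ℝ) ^ (1 / r) ≤ 32 * D * d * lam ^ 2 * ((16 * C * lam / c) ^ q + 2) :=
    fun n N d lam c T x hd hl hc hr' hT hx hlow happ =>
      rank_growth hX hX' (by linarith) (by linarith) hC hD hl hc hd (fun j => (hr' j).1)
        (fun j => (hr' j).2) hT hx hlow happ
  refine ⟨hmain, ?_⟩
  rintro lam d happ ⟨c, hc, hl1⟩
  classical
  set L := max lam 0
  set B := 32 * D * (d + 1 : ℕ) * L ^ 2 * ((16 * C * L / c) ^ q + 2) / c ^ 2 with hB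
  have hB0 : 0 ≤ B := by
    have : 0 ≤ L := le_max_right _ _
    positivity
  obtain ⟨n, hn⟩ := exists_nat_gt (B ^ r)
  obtain ⟨x, hx, hlow⟩ := hl1 n
  obtain ⟨N, T, h1, h2, h3⟩ := happ (univ.image x) (c / 2) (half_pos hc)
  have h := hmain n N (d + 1) L c T x (Nat.succ_pos d) (le_max_right _ _) hc
    (fun j => ⟨(h1 j).1, (h1 j).2.trans (Nat.le_succ d)⟩)
    (fun σ z => (h2 σ z).trans (mul_le_mul_of_nonneg_right (le_max_left _ _) (norm_nonneg _))) hx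
    (fun θ => by
      refine le_trans (le_of_eq ?_) (hlow fun k => cond (θ k) 1 (-1))
      have : ∀ b : Bool, |(cond b 1 (-1) : ℝ)| = 1 := abs_sgn
      simp [this])
    (fun k => h3 _ (mem_image_of_mem _ (mem_univ _)))
  have hle : (n : ℝ) ^ (1 / r) ≤ B := by
    rw [hB, le_div_iff₀ (by positivity), mul_comm]
    exact h
  have := Real.rpow_le_rpow (by positivity) hle (by linarith : 0 ≤ r)
  rw [← Real.rpow_mul (Nat.cast_nonneg n), one_div_mul_cancel (by linarith), Real.rpow_one] at this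
  linarith

end Vale.Agent.Results.P111.BoundedMultiplicity
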